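import Vale.Agent.P372.Cert0
import Vale.Agent.P372.Cert1
import Vale.Agent.P372.Cert2
import Vale.Agent.P372.Cert3

namespace Vale.Agent.P372

open Dfs

/-- the twenty points -/
def ptL : List (ℤ × ℤ × ℤ × ℤ) :=
  [(1, 1, 0, 0),
   (1, -1, 0, 0),
   (1, 0, 1, 0),
   (1, 0, -1, 0),
   (1, 0, 0, 1),
   (1, 0, 0, -1),
   (0, 1, 1, 0),
   (0, 1, -1, 0),
   (0, 1, 0, 1),
   (0, 1, 0, -1),
   (0, 0, 1, 1),
   (0, 0, 1, -1),
   (1, 2, 3, -8),
   (1, 2, -3, 8),
   (1, -2, 3, 8),
   (1, -2, -3, -8),
   (43, 47, 53, 97),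
   (43, 47, -53, -97),
   (43, -47, 53, -97),
   (43, -47, -53, 97)]

def vec (p : ℤ × ℤ × ℤ × ℤ) : Fin 4 → ℂ := ![p.1, p.2.1, p.2.2.1, p.2.2.2]

def qf (X : Fin 4 × Fin 4 → ℂ) (p : Fin 4 → ℂ) : ℂ := ∑ x : Fin 4 × Fin 4, X x * (p x.1 * p x.2)

def toL (X : Fin 4 × Fin 4 → ℂ) : List ℂ :=
  [X (0,1) + X (1,0), X (0,2) + X (2,0), X (0,3) + X (3,0), X (1,2) + X (2,1), X (1,3) + X (3,1),
    X (2,3) + X (3,2), X (0,0), X (1,1), X (2,2), X (3,3)]

lemma pts_eq (X : Fin 4 × Fin 4 → ℂ) :
    List.Forall₂ (fun a p => dot a (toL X) = qf X (vec p)) pts ptL := by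
  unfold pts ptL
  simp only [List.forall₂_cons, List.Forall₂.nil, and_true]
  refine ⟨?_, ?_, ?_, ?_, ?_, ?_, ?_, ?_, ?_, ?_, ?_, ?_, ?_, ?_, ?_, ?_, ?_, ?_, ?_, ?_⟩ <;>
  · simp [toL, qf, vec, Fintype.sum_prod_type, Fin.sum_univ_four]
    ring

lemma cov_of (X Y : Fin 4 × Fin 4 → ℂ) : ∀ (xs ys : List V) (l : List (ℤ × ℤ × ℤ × ℤ)),
    List.Forall₂ (fun a p => dot a (toL X) = qf X (vec p)) xs l →
    List.Forall₂ (fun a p => dot a (toL Y) = qf Y (vec p)) ys l →
    (∀ p ∈ l, qf X (vec p) = 0 ∨ qf Y (vec p) = 0) → Cov (toL X) (toL Y) xs ys := by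
  intro xs ys l h1
  induction h1 generalizing ys with
  | nil => intro h2 _; cases h2; exact List.Forall₂.nil
  | cons h3 _ ih =>
    intro h2 h
    cases h2 with
    | cons h4 h5 =>
      refine List.Forall₂.cons ?_ (ih _ h5 fun p hp => h p (List.mem_cons_of_mem _ hp))
      rw [h3, h4]
      exact h _ List.mem_cons_self

lemma no_cover_aux (X Y : List ℂ) (hx : dot tr X ≠ 0) (hy : dot tr Y ≠ 0)
    (h0 : dot (pts.head (by simp [pts])) X = 0) (hc : Cov X Y pts pts) : False := by
  have hp : pts = pts.head (by simp [pts]) :: pts.tail := (List.cons_head_tail _).symm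
  have hc' : Cov X Y pts.tail pts.tail := by
    rw [hp] at hc
    cases hc with
    | cons _ h => exact h
  obtain ⟨l, hl, h⟩ := exists_asg X Y 4 _ _ hc'
  have h2 : Asg X Y (true :: l) pts pts := by
    rw [hp]
    exact ⟨h0, h⟩
  have h3 : run (true :: l) pts pts tr tr = true := by
    match l, hl with
    | [true, true, true, true], _ => exact cert0
    | [true, true, true, false], _ => exact cert1
    | [true, true, false, true], _ => exact cert2
    | [true, true, false, false], _ => exact cert3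
    | [true, false, true, true], _ => exact cert4
    | [true, false, true, false], _ => exact cert5
    | [true, false, false, true], _ => exact cert6
    | [true, false, false, false], _ => exact cert7
    | [false, true, true, true], _ => exact cert8
    | [false, true, true, false], _ => exact cert9
    | [false, true, false, true], _ => exact cert10
    | [false, true, false, false], _ => exact cert11
    | [false, false, true, true], _ => exact cert12
    | [false, false, true, false], _ => exact cert13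
    | [false, false, false, true], _ => exact cert14
    | [false, false, false, false], _ => exact cert15
  exact run_sound _ _ _ _ _ X Y h3 hx hy h2

lemma Dfs.Cov.swap {X Y : List ℂ} {xs ys : List V} (h : Cov X Y xs ys) : Cov Y X ys xs := by
  induction h with
  | nil => exact List.Forall₂.nil
  | cons h1 _ ih => exact List.Forall₂.cons h1.symm ih

theorem no_cover (X Y : Fin 4 × Fin 4 → ℂ)
    (h : ∀ p ∈ ptL, qf X (vec p) = 0 ∨ qf Y (vec p) = 0) :
    ∑ i, X (i, i) = 0 ∨ ∑ i, Y (i, i) = 0 := by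
  by_contra hne
  push Not at hne
  have ht : ∀ Z : Fin 4 × Fin 4 → ℂ, dot tr (toL Z) = ∑ i, Z (i, i) := by
    intro Z
    simp [tr, toL, Fin.sum_univ_four]
    ring
  have hc := cov_of X Y _ _ _ (pts_eq X) (pts_eq Y) h
  have hx : dot tr (toL X) ≠ 0 := by rw [ht]; exact hne.1
  have hy : dot tr (toL Y) ≠ 0 := by rw [ht]; exact hne.2
  have hp : pts = pts.head (by simp [pts]) :: pts.tail := (List.cons_head_tail _).symm
  have h1 : dot (pts.head (by simp [pts])) (toL X) = 0 ∨
      dot (pts.head (by simp [pts])) (toL Y) = 0 := by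
    have hc2 := hc
    rw [hp] at hc2
    cases hc2 with
    | cons h _ => exact h
  rcases h1 with h1 | h1
  · exact no_cover_aux _ _ hx hy h1 hc
  · exact no_cover_aux _ _ hy hx h1 hc.swap

end Vale.Agent.P372
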